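import Crest.Agent.X212.Tw9.Defs
import Crest.Agent.X212.Dsc37.Tw
import Crest.Agent.X212.Lev33.St
import Crest.Agent.X212.Srf12.Defs

/-!
# X212 / T layer, loop theorem: the geometric seam of road B and the exports (helper46).
Definitions and Props only.
-/

set_option autoImplicit false

open Set Metric Topology
open scoped Classical

namespace Crest.Agent.X212.Geo46

open Crest.Agent.R096.Ce_537
open Crest.Agent.X212.Prd34 (V P up fl Mf DehnStmt)
open Crest.Agent.X212.Lev33 (Coc Prim LTStmt)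
open Crest.Agent.X212.Dsc4 (ROpen Ess)
open Crest.Agent.X212.Tw9 (Tri LTc H1c SimpStmt)
open Crest.Agent.X212.Dsc37 (Dat Dom Mt Sf sd H1On LtcStmt)

section Tri

variable {E : Type} [NormedAddCommGroup E] [NormedSpace ℝ E] {ι : Type} [Fintype ι] {X : Set E}

/-- the vertices of the carrier of a point -/
noncomputable def supp (T : Tri ι X) (y : E) : Finset ι := Finset.univ.filter (fun u => 0 < T.be u y)

/-- the abstract complex -/
def simp (T : Tri ι X) : Set (Finset ι) := {s | s.Nonempty ∧ ∃ y ∈ X, s ⊆ supp T y}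

/-- the closed simplex (or the full subcomplex) on a set of vertices -/
def cell (T : Tri ι X) (s : Set ι) : Set E := {y | y ∈ X ∧ ∀ u ∈ supp T y, u ∈ s}

/-- the simplices contained in `A` -/
def simpIn (T : Tri ι X) (A : Set E) : Set (Finset ι) := {s | s ∈ simp T ∧ cell T s ⊆ A}

/-- the open star of a simplex -/
def ost (T : Tri ι X) (s : Finset ι) : Set E := {y | y ∈ X ∧ s ⊆ supp T y}

end Tri

/-- `X` is the combinatorial shadow of a triangulated compact piece of `M` -/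
structure Geo {Γ : Type} [Group Γ] (M dM : Set V) (c : V → V → Γ) (X : Dat (Additive Γ)) where
  Y : Set V
  T : Tri X.V Y
  b : Finset X.V → V → Γ
  YM : Y ⊆ M
  sub : T.Sub dM
  hK : X.K = simp T
  hF : X.F = simpIn T dM
  good : ∀ a ∈ X.A, T.Good M a
  prim : ∀ σ ∈ X.F, Mt X.A σ → Prim (ost T σ ∩ dM) c (b σ)
  geq : ∀ σ ∈ X.F, Mt X.A σ → ∀ ρ ∈ X.F, σ ⊆ ρ → ∀ x ∈ ost T ρ ∩ dM,
    Additive.toMul (X.g σ ρ) = b σ x * (b ρ x)⁻¹

/-- **(SD)** barycentric subdivision of a triangulation -/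
def SdStmt : Prop := ∀ (E : Type) [NormedAddCommGroup E] [NormedSpace ℝ E] [FiniteDimensional ℝ E]
  (ι : Type) [Fintype ι] (X : Set E) (T : Tri ι X), ∃ T' : Tri (Finset ι) X,
    simp T' = sd (simp T) ∧
    (∀ y ∈ X, supp T y ∈ supp T' y ∧ ∀ σ ∈ supp T' y, σ ⊆ supp T y) ∧
    ∀ σ ∈ simp T, T'.pt σ ∈ X ∧ supp T (T'.pt σ) = σ

/-- **(SIMP2)** `SimpStmt` with one more compact polyhedron as a subcomplex -/
def Simp2Stmt : Prop := ∀ (M dM C Q : Set V), Mf M dM → IsCompact C → C ⊆ M → Srf12.Poly Q →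
  ∃ (ι : Type) (_ : Fintype ι) (X : Set V) (T : Tri ι X), C ⊆ X ∧ X ⊆ M ∧ T.Sub dM ∧ T.Sub Q ∧
    ∀ u, (∃ x ∈ C, 0 < T.be u x) → T.Good M u

/-- **(LOC)** the local manifold conditions -/
def LocStmt : Prop := ∀ (Γ : Type) [Group Γ] (M dM : Set V) (c : V → V → Γ)
  (X : Dat (Additive Γ)), Mf M dM → Geo M dM c X → X.OK ∧ X.Loc

/-- **(PUSH)** push the interior of a singular disc off the boundary -/
def PushStmt : Prop := ∀ (M dM : Set V) (f : P → V), Mf M dM → ContinuousOn f (cube 2) →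
  MapsTo f (cube 2) M → ∃ f' : P → V, ContinuousOn f' (cube 2) ∧ MapsTo f' (cube 2) M ∧
    EqOn f' f (sph 2) ∧ ∀ x ∈ cube 2, f' x ∈ dM → x ∈ sph 2

/-- **(IN)** the combinatorial input -/
def InStmt : Prop := ∀ (Γ : Type) [Group Γ] (M dM : Set V) (c : V → V → Γ) (f : P → V),
  Mf M dM → Coc dM c → ContinuousOn f (cube 2) → MapsTo f (cube 2) M → MapsTo f (sph 2) dM →
  (¬ ∃ b, Prim (sph 2) (fun x y => c (f x) (f y)) b) →
  ∃ X : Dat (Additive Γ), Nonempty (Geo M dM c X) ∧ Nonempty (Dom X)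

/-- **(CX)** a subcomplex is a complex of PL balls -/
def CxStmt : Prop := ∀ (E : Type) [NormedAddCommGroup E] [NormedSpace ℝ E] [FiniteDimensional ℝ E]
  (ι : Type) [Fintype ι] (X : Set E) (T : Tri ι X) (𝒮 : Set (Finset ι)), 𝒮 ⊆ simp T →
  (∀ s ∈ 𝒮, ∀ t : Finset ι, t ⊆ s → t.Nonempty → t ∈ 𝒮) →
  Cplx {y | y ∈ X ∧ supp T y ∈ 𝒮} 𝒮 (fun s => s.1.card - 1) (fun s => cell T s.1)

/-- **(H1)** connectedness and `H¹` of a full subcomplex -/
def H1Stmt : Prop := ∀ (E : Type) [NormedAddCommGroup E] [NormedSpace ℝ E] [FiniteDimensional ℝ E]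
  (ι : Type) [Fintype ι] (X : Set E) (T : Tri ι X) (A : Set ι),
  (H1On (simp T) A → H1c (cell T A) ∧ Srf12.H1 (cell T A)) ∧
  (Dsc37.Conn (fun u v => {u, v} ∈ simp T) {u | u ∈ A ∧ {u} ∈ simp T} → IsConnected (cell T A))

/-- **(DISC)** recognition of discs (12) -/
def DiscStmt : Prop := ∀ (S dS : Set V) (I : Type) [PartialOrder I] [Finite I] (dim : I → ℕ)
  (K : I → Set V), Srf12.SC S dS I dim K → IsConnected S → Srf12.H1 S → dS.Nonempty →
  IsBall 2 S dS

/-- **(REAL)** realisation of a normal disc -/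
def RealStmt : Prop := ∀ (Γ : Type) [Group Γ] (M dM : Set V) (c : V → V → Γ)
  (X : Dat (Additive Γ)), Mf M dM → Geo M dM c X → X.HasDisc → ∃ D, Ess M dM dM c D

/-- **(ANB)** a circle in the boundary of a PL three-manifold in `V` is two-sided -/
def AnbStmt : Prop := ∀ (M dM Γ : Set V) (γ : ℝ → V), Mf M dM → Γ ⊆ dM → Srf12.Loop Γ γ →
  ∃ (A : Set V) (g : P → V), Srf12.Ann A g ∧ A ⊆ dM ∧ (∀ s : ℝ, g ![0, s] = γ s) ∧
    ROpen dM (g '' {y | |y 0| < 1})

end Crest.Agent.X212.Geo46
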