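import Crest.Agent.X212.Geo46.Defs

/-!
# X212 / T layer: calculus of supports, cells and open stars of a `Tri` (helper46)
-/

set_option autoImplicit false
set_option linter.unusedSectionVars false

open Set Metric Topology Filter
open scoped Classical

namespace Crest.Agent.X212.Geo46

open Crest.Agent.R096.Ce_537
open Crest.Agent.X212.Lev33 (Coc Prim LCo)
open Crest.Agent.X212.Tw9 (Tri)
open Crest.Agent.X212.Dsc37 (Cx)

variable {E : Type} [NormedAddCommGroup E] [NormedSpace ℝ E] {ι : Type} [Fintype ι] {X : Set E}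
  (T : Tri ι X)

theorem mem_supp {y : E} {u : ι} : u ∈ supp T y ↔ 0 < T.be u y := by simp [supp]

theorem not_mem_supp {y : E} (hy : y ∈ X) {u : ι} : u ∉ supp T y ↔ T.be u y = 0 := by
  rw [mem_supp]
  exact ⟨fun h => le_antisymm (not_lt.1 h) (T.nn y hy u), fun h => by rw [h]; exact lt_irrefl _⟩

theorem supp_ne {y : E} (hy : y ∈ X) : (supp T y).Nonempty := by
  by_contra h
  rw [Finset.not_nonempty_iff_eq_empty] at h
  have h1 := T.sum y hy
  rw [Finset.sum_eq_zero (fun u _ => (not_mem_supp T hy).1 (by simp [h]))] at h1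
  exact zero_ne_one h1

theorem supp_mem {y : E} (hy : y ∈ X) : supp T y ∈ simp T :=
  ⟨supp_ne T hy, y, hy, subset_rfl⟩

theorem simp_down {s t : Finset ι} (hs : s ∈ simp T) (h : t ⊆ s) (ht : t.Nonempty) :
    t ∈ simp T := by
  obtain ⟨-, y, hy, h'⟩ := hs
  exact ⟨ht, y, hy, h.trans h'⟩

theorem cx_simp : Cx (simp T) := ⟨fun _ h => h.1, fun _ h _ h1 h2 => simp_down T h h1 h2⟩

theorem cell_mono {s t : Set ι} (h : s ⊆ t) : cell T s ⊆ cell T t :=
  fun _ hy => ⟨hy.1, fun u hu => h (hy.2 u hu)⟩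

theorem cell_sub (s : Set ι) : cell T s ⊆ X := fun _ h => h.1

theorem mem_cell {s : Finset ι} {y : E} : y ∈ cell T (s : Set ι) ↔ y ∈ X ∧ supp T y ⊆ s :=
  Iff.rfl

theorem self_mem_cell {y : E} (hy : y ∈ X) : y ∈ cell T (supp T y : Set ι) := ⟨hy, fun _ h => h⟩

theorem cx_simpIn (A : Set E) : Cx (simpIn T A) :=
  ⟨fun _ h => h.1.1, fun _ h _ h1 h2 =>
    ⟨simp_down T h.1 h1 h2, (cell_mono T (Finset.coe_subset.2 h1)).trans h.2⟩⟩

theorem ost_anti {s t : Finset ι} (h : s ⊆ t) : ost T t ⊆ ost T s :=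
  fun _ hy => ⟨hy.1, h.trans hy.2⟩

theorem ost_sub (s : Finset ι) : ost T s ⊆ X := fun _ h => h.1

/-- points with prescribed weights on a simplex -/
theorem comb {s : Finset ι} (hs : s ∈ simp T) (w : ι → ℝ) (h0 : ∀ u, 0 ≤ w u)
    (h1 : ∑ u, w u = 1) (h2 : ∀ u, u ∉ s → w u = 0) :
    ∑ u, w u • T.pt u ∈ X ∧ ∀ u', T.be u' (∑ u, w u • T.pt u) = w u' := by
  obtain ⟨-, y, hy, h⟩ := hs
  exact T.face y hy w h0 h1 fun u hu => h2 u fun hus => (not_mem_supp T hy).2 hu (h hus)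

theorem eq_of_be {y z : E} (hy : y ∈ X) (hz : z ∈ X) (h : ∀ u, T.be u y = T.be u z) : y = z := by
  rw [← T.rep y hy, ← T.rep z hz]
  exact Finset.sum_congr rfl fun u _ => by rw [h u]

/-- segments inside a simplex -/
theorem seg {s : Finset ι} (hs : s ∈ simp T) {y z : E} (hy : y ∈ cell T (s : Set ι))
    (hz : z ∈ cell T (s : Set ι)) {a b : ℝ} (ha : 0 ≤ a) (hb : 0 ≤ b) (hab : a + b = 1) :
    a • y + b • z ∈ X ∧ ∀ u, T.be u (a • y + b • z) = a * T.be u y + b * T.be u z := by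
  have h := comb T hs (fun u => a * T.be u y + b * T.be u z)
    (fun u => add_nonneg (mul_nonneg ha (T.nn y hy.1 u)) (mul_nonneg hb (T.nn z hz.1 u)))
    (by rw [Finset.sum_add_distrib, ← Finset.mul_sum, ← Finset.mul_sum, T.sum y hy.1,
      T.sum z hz.1]; linarith)
    (fun u hu => by
      rw [(not_mem_supp T hy.1).1 fun h => hu (hy.2 u h),
        (not_mem_supp T hz.1).1 fun h => hu (hz.2 u h)]; ring)
  have e : ∑ u, (a * T.be u y + b * T.be u z) • T.pt u = a • y + b • z := by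
    conv_rhs => rw [← T.rep y hy.1, ← T.rep z hz.1]
    simp only [add_smul, mul_smul, Finset.sum_add_distrib, Finset.smul_sum]
  rw [e] at h
  exact h

theorem supp_seg {s : Finset ι} (hs : s ∈ simp T) {y z : E} (hy : y ∈ cell T (s : Set ι))
    (hz : z ∈ cell T (s : Set ι)) {a b : ℝ} (ha : 0 ≤ a) (hb : 0 ≤ b) (hab : a + b = 1) {u : ι} :
    u ∈ supp T (a • y + b • z) ↔ (0 < a ∧ u ∈ supp T y) ∨ (0 < b ∧ u ∈ supp T z) := by
  rw [mem_supp, (seg T hs hy hz ha hb hab).2 u, mem_supp, mem_supp]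
  have h1 := T.nn y hy.1 u
  have h2 := T.nn z hz.1 u
  constructor
  · intro h
    by_contra hc
    push Not at hc
    have e1 : a * T.be u y = 0 := by
      rcases ha.eq_or_lt with h0 | h0
      · rw [← h0, zero_mul]
      · rw [le_antisymm (hc.1 h0) h1, mul_zero]
    have e2 : b * T.be u z = 0 := by
      rcases hb.eq_or_lt with h0 | h0
      · rw [← h0, zero_mul]
      · rw [le_antisymm (hc.2 h0) h2, mul_zero]
    linarith
  · rintro (⟨h, h'⟩ | ⟨h, h'⟩)
    · have := mul_pos h h'; have := mul_nonneg hb h2; linarith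
    · have := mul_pos h h'; have := mul_nonneg ha h1; linarith

theorem convex_cell {s : Finset ι} (hs : s ∈ simp T) : Convex ℝ (cell T (s : Set ι)) := by
  intro y hy z hz a b ha hb hab
  refine ⟨(seg T hs hy hz ha hb hab).1, fun u hu => ?_⟩
  rcases (supp_seg T hs hy hz ha hb hab).1 hu with h | h
  · exact hy.2 u h.2
  · exact hz.2 u h.2

/-- the barycentre -/
noncomputable def bar (s : Finset ι) : E :=
  ∑ u, (if u ∈ s then ((s.card : ℝ))⁻¹ else 0) • T.pt u

theorem bar_spec {s : Finset ι} (hs : s ∈ simp T) :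
    bar T s ∈ X ∧ ∀ u, T.be u (bar T s) = if u ∈ s then ((s.card : ℝ))⁻¹ else 0 := by
  have hc : (s.card : ℝ) ≠ 0 := by exact_mod_cast hs.1.card_pos.ne'
  refine comb T hs _ (fun u => by split_ifs <;> positivity) ?_ (fun u hu => if_neg hu)
  rw [Finset.sum_ite_mem, Finset.univ_inter, Finset.sum_const, nsmul_eq_mul, mul_inv_cancel₀ hc]

theorem supp_bar {s : Finset ι} (hs : s ∈ simp T) : supp T (bar T s) = s := by
  have hc : (0 : ℝ) < (s.card : ℝ)⁻¹ := inv_pos.2 (by exact_mod_cast hs.1.card_pos)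
  ext u
  rw [mem_supp, (bar_spec T hs).2]
  split_ifs with h <;> simp [h, hc]

theorem exists_supp {s : Finset ι} (hs : s ∈ simp T) : ∃ y ∈ X, supp T y = s :=
  ⟨_, (bar_spec T hs).1, supp_bar T hs⟩

theorem bar_single (u : ι) : bar T {u} = T.pt u := by
  simp [bar, ite_smul]

theorem pt_mem {u : ι} (hu : {u} ∈ simp T) : T.pt u ∈ X := by
  rw [← bar_single]; exact (bar_spec T hu).1

theorem supp_pt {u : ι} (hu : {u} ∈ simp T) : supp T (T.pt u) = {u} := by
  rw [← bar_single]; exact supp_bar T hu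

theorem vtx_of_mem {s : Finset ι} (hs : s ∈ simp T) {u : ι} (hu : u ∈ s) : {u} ∈ simp T :=
  simp_down T hs (Finset.singleton_subset_iff.2 hu) (Finset.singleton_nonempty u)

/-- supports are lower semicontinuous -/
theorem ev_supp {y : E} (hy : y ∈ X) : ∀ᶠ z in 𝓝[X] y, supp T y ⊆ supp T z := by
  have : ∀ u ∈ supp T y, ∀ᶠ z in 𝓝[X] y, 0 < T.be u z := fun u hu =>
    ((T.pl u).1 y hy).eventually (lt_mem_nhds ((mem_supp T).1 hu))
  filter_upwards [(eventually_all_finset _).2 this] with z hz u hu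
  exact (mem_supp T).2 (hz u hu)

theorem ost_nhds {s : Finset ι} {y : E} (hy : y ∈ ost T s) : ost T s ∈ 𝓝[X] y := by
  filter_upwards [ev_supp T hy.1, self_mem_nhdsWithin] with z hz hX
  exact ⟨hX, hy.2.trans hz⟩

theorem isClosed_cell (s : Set ι) : IsClosed (cell T s) := by
  have : cell T s = X ∩ ⋂ u ∈ sᶜ, X ∩ T.be u ⁻¹' {0} := by
    ext y
    simp only [cell, mem_ofPred_eq, mem_inter_iff, mem_iInter, mem_compl_iff, mem_preimage,
      mem_singleton_iff]
    constructor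
    · rintro ⟨h, h'⟩
      exact ⟨h, fun u hu => ⟨h, (not_mem_supp T h).1 fun h'' => hu (h' u h'')⟩⟩
    · rintro ⟨h, h'⟩
      refine ⟨h, fun u hu => by_contra fun hs => (not_mem_supp T h).2 (h' u hs).2 hu⟩
  rw [this]
  exact T.cpt.isClosed.inter (isClosed_biInter fun u _ =>
    (T.pl u).1.preimage_isClosed_of_isClosed T.cpt.isClosed isClosed_singleton)

theorem isCompact_cell (s : Set ι) : IsCompact (cell T s) :=
  T.cpt.of_isClosed_subset (isClosed_cell T s) (cell_sub T s)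

variable {T}

theorem sub_iff {A : Set E} : T.Sub A ↔
    ∀ y ∈ X, ∀ y' ∈ X, y ∈ A → supp T y' ⊆ supp T y → y' ∈ A := by
  refine forall₂_congr fun y hy => forall₂_congr fun y' hy' => forall_congr' fun _ => ?_
  refine imp_congr_left ⟨fun h u hu => ?_, fun h u hu => ?_⟩
  · by_contra hc
    exact (not_mem_supp T hy').2 (h u ((not_mem_supp T hy).1 hc)) hu
  · exact (not_mem_supp T hy').1 fun h' => (not_mem_supp T hy).2 hu (h h')

theorem supp_memIn {A : Set E} (h : T.Sub A) {y : E} (hy : y ∈ X) :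
    supp T y ∈ simpIn T A ↔ y ∈ A :=
  ⟨fun h' => h'.2 (self_mem_cell T hy),
    fun h' => ⟨supp_mem T hy, fun z hz => sub_iff.1 h y hy z hz.1 h' hz.2⟩⟩

theorem memIn_of {A : Set E} (h : T.Sub A) {y : E} (hy : y ∈ X) (hA : y ∈ A) {s : Finset ι}
    (hs : s ⊆ supp T y) (hn : s.Nonempty) : s ∈ simpIn T A :=
  (cx_simpIn T A).down _ ((supp_memIn h hy).2 hA) s hs hn

/-- an open star met with a subcomplex is star-shaped about every point with that carrier -/
theorem starConvex_ost {A : Set E} (h : T.Sub A) {x : E} (hx : x ∈ X) :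
    StarConvex ℝ x (ost T (supp T x) ∩ A) := by
  rintro y ⟨hy, hA⟩ a b ha hb hab
  have hs := supp_mem T hy.1
  have hx' : x ∈ cell T (supp T y : Set ι) := ⟨hx, fun u hu => hy.2 hu⟩
  have hy' := self_mem_cell T hy.1
  have h1 := (seg T hs hx' hy' ha hb hab).1
  refine ⟨⟨h1, fun u hu => (supp_seg T hs hx' hy' ha hb hab).2 ?_⟩,
    sub_iff.1 h y hy.1 _ h1 hA (convex_cell T hs hx' hy' ha hb hab).2⟩
  rcases ha.eq_or_lt with h0 | h0
  · exact Or.inr ⟨by linarith, hy.2 hu⟩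
  · exact Or.inl ⟨h0, hu⟩

theorem sub_univ : T.Sub univ := fun _ _ _ _ _ _ => trivial

theorem sub_cell (s : Set ι) : T.Sub (cell T s) :=
  sub_iff.2 fun _ _ _ hy' h h' => ⟨hy', fun u hu => h.2 u (h' hu)⟩

theorem Sub.inter {A B : Set E} (hA : T.Sub A) (hB : T.Sub B) : T.Sub (A ∩ B) :=
  fun y hy y' hy' h h' => ⟨hA y hy y' hy' h.1 h', hB y hy y' hy' h.2 h'⟩

theorem bar_mem_ost {A : Set E} {s : Finset ι} (hs : s ∈ simpIn T A) :
    bar T s ∈ ost T s ∩ A :=
  ⟨⟨(bar_spec T hs.1).1, (supp_bar T hs.1).ge⟩,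
    hs.2 ⟨(bar_spec T hs.1).1, fun _ hu => (supp_bar T hs.1).le hu⟩⟩

theorem preconn_ost {A : Set E} (h : T.Sub A) {s : Finset ι} (hs : s ∈ simp T) :
    IsPreconnected (ost T s ∩ A) := by
  have h1 := starConvex_ost h (bar_spec T hs).1
  rw [supp_bar T hs] at h1
  rcases (ost T s ∩ A).eq_empty_or_nonempty with h0 | h0
  · rw [h0]; exact isPreconnected_empty
  · exact (h1.isPathConnected (h1.mem h0)).isConnected.isPreconnected

end Crest.Agent.X212.Geo46
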