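import Crest.Agent.X212.Geo46.Api
import Crest.Agent.X212.Prd34.Top

/-!
# X212 / T layer: subdivision of `Geo`, the combinatorial input, the glue of road B (helper46)
-/

set_option autoImplicit false

open Set Metric Topology Filter
open scoped Classical

namespace Crest.Agent.X212.Geo46

open Crest.Agent.R096.Ce_537
open Crest.Agent.X212.Prd34 (V P up fl Mf)
open Crest.Agent.X212.Lev33 (Coc Prim LCo)
open Crest.Agent.X212.Dsc4 (ROpen Ess)
open Crest.Agent.X212.Tw9 (Tri LTc SimpStmt)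
open Crest.Agent.X212.Dsc37 (Dat Dom Mt Sf sd top H1On LtcStmt)

section Sd

variable {E : Type} [NormedAddCommGroup E] [NormedSpace ℝ E] {ι : Type} [Fintype ι] {X : Set E}

/-- `T'` is the barycentric subdivision of `T` -/
def IsSd (T : Tri ι X) (T' : Tri (Finset ι) X) : Prop :=
  simp T' = sd (simp T) ∧
    (∀ y ∈ X, supp T y ∈ supp T' y ∧ ∀ σ ∈ supp T' y, σ ⊆ supp T y) ∧
    ∀ σ ∈ simp T, T'.pt σ ∈ X ∧ supp T (T'.pt σ) = σ

variable {T : Tri ι X} {T' : Tri (Finset ι) X}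

theorem IsSd.sub (h : IsSd T T') {A : Set E} (hA : T.Sub A) : T'.Sub A :=
  sub_iff.2 fun y hy y' hy' hyA hs =>
    sub_iff.1 hA y hy y' hy' hyA ((h.2.1 y hy).2 _ (hs (h.2.1 y' hy').1))

theorem IsSd.vtx (h : IsSd T T') {σ : Finset ι} : {σ} ∈ simp T' ↔ σ ∈ simp T := by
  rw [h.1]; simp [sd]

theorem IsSd.simpIn_iff (h : IsSd T T') {A : Set E} (hA : T.Sub A) {r : Finset (Finset ι)} :
    r ∈ simpIn T' A ↔ r ∈ simp T' ∧ ∀ σ ∈ r, σ ∈ simpIn T A := by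
  constructor
  · rintro ⟨h1, h2⟩
    refine ⟨h1, fun σ hσ => ?_⟩
    have hv := vtx_of_mem T' h1 hσ
    have hs := h.2.2 σ (h.vtx.1 hv)
    rw [← hs.2]
    refine (supp_memIn hA hs.1).2 (h2 ⟨hs.1, fun u hu => ?_⟩)
    rw [supp_pt T' hv, Finset.mem_singleton] at hu
    rw [hu]; exact hσ
  · rintro ⟨h1, h2⟩
    exact ⟨h1, fun y hy => (supp_memIn hA hy.1).1 (h2 _ (hy.2 _ (h.2.1 y hy.1).1))⟩

theorem IsSd.simpIn (h : IsSd T T') {A : Set E} (hA : T.Sub A) :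
    simpIn T' A = sd (simpIn T A) := by
  ext r
  rw [h.simpIn_iff hA, h.1]
  exact ⟨fun ⟨a, b⟩ => ⟨a.1, b, a.2.2⟩, fun ⟨a, b, c⟩ => ⟨⟨a, fun σ hσ => (b σ hσ).1, c⟩, b⟩⟩

theorem IsSd.good (h : IsSd T T') {M : Set E} {σ : Finset ι} {a : ι} (ha : a ∈ σ)
    (hg : T.Good M a) : T'.Good M σ := fun y hy hp =>
  hg y hy ((mem_supp T).1 ((h.2.1 y hy).2 σ ((mem_supp T').2 hp) ha))

end Sd

theorem top_mem {ι : Type} [DecidableEq ι] {K : Set (Finset ι)} {r : Finset (Finset ι)}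
    (hr : r ∈ sd K) : top r ∈ r := by
  obtain ⟨m, hm, hmax⟩ := r.exists_max_image Finset.card hr.1
  have : top r = m := by
    apply Finset.Subset.antisymm
    · intro u hu
      obtain ⟨σ, hσ, huσ⟩ := Finset.mem_biUnion.1 hu
      rcases hr.2.2 σ hσ m hm with h | h
      · exact h huσ
      · rw [Finset.eq_of_subset_of_card_le h (hmax σ hσ)]; exact huσ
    · exact fun u hu => Finset.mem_biUnion.2 ⟨m, hm, hu⟩
  rw [this]; exact hm

theorem sub_top {ι : Type} [DecidableEq ι] {r : Finset (Finset ι)} {σ : Finset ι} (h : σ ∈ r) :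
    σ ⊆ top r := fun _ hu => Finset.mem_biUnion.2 ⟨σ, h, hu⟩

variable {Γ : Type} [Group Γ] {M dM : Set V} {c : V → V → Γ}

theorem Geo.sub1 (hS : SdStmt) {X : Dat (Additive Γ)} (G : Geo M dM c X) :
    Nonempty (Geo M dM c X.sub1) := by
  obtain ⟨T', h⟩ := hS V X.V G.Y G.T
  have h : IsSd G.T T' := h
  have key : ∀ r ∈ X.sub1.F, Mt X.sub1.A r → top r ∈ X.F ∧ Mt X.A (top r) := by
    intro r hr hm
    obtain ⟨σ, hσ, -, a, ha, haA⟩ := hm
    exact ⟨hr.2.1 _ (top_mem hr), a, sub_top hσ ha, haA⟩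
  have ho : ∀ r : Finset (Finset X.V), ost T' r ⊆ ost G.T (top r) := by
    intro r y hy
    refine ⟨hy.1, fun u hu => ?_⟩
    obtain ⟨σ, hσ, huσ⟩ := Finset.mem_biUnion.1 hu
    exact (h.2.1 y hy.1).2 σ (hy.2 hσ) huσ
  refine ⟨⟨G.Y, T', fun r => G.b (top r), G.YM, h.sub G.sub, ?_, ?_, ?_, ?_, ?_⟩⟩
  · show sd X.K = simp T'
    rw [h.1, G.hK]
  · show sd X.F = simpIn T' dM
    rw [h.simpIn G.sub, G.hF]
  · rintro σ ⟨-, a, ha, haA⟩
    exact h.good ha (G.good a haA)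
  · intro r hr hm
    exact (G.prim _ (key r hr hm).1 (key r hr hm).2).mono (inter_subset_inter_left _ (ho r))
  · intro r hr hm s hs hrs x hx
    exact G.geq _ (key r hr hm).1 (key r hr hm).2 _ (hs.2.1 _ (top_mem hs))
      (sub_top (hrs (top_mem hr))) x ⟨ho s hx.1, hx.2⟩

theorem Geo.subN (hS : SdStmt) {X : Dat (Additive Γ)} (G : Geo M dM c X) (n : ℕ) :
    Nonempty (Geo M dM c (X.subN n)) := by
  induction n with
  | zero => exact ⟨G⟩
  | succ n ih => obtain ⟨G'⟩ := ih; exact G'.sub1 hS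

/-- a triangulation and a set of good vertices give a `Geo` -/
theorem exists_geo (hc : Coc dM c) {ι : Type} [Fintype ι] [hd : DecidableEq ι] {Y : Set V} (T : Tri ι Y)
    (hY : Y ⊆ M) (hs : T.Sub dM) (A : Set ι) (hA : ∀ a ∈ A, T.Good M a) :
    ∃ (g : Finset ι → Finset ι → Additive Γ) (b : Finset ι → V → Γ), Nonempty (Geo M dM c
      ⟨ι, inferInstance, hd, simp T, simpIn T dM, A, g⟩) ∧
      (∀ σ ∈ simpIn T dM, Prim (ost T σ ∩ dM) c (b σ)) ∧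
      ∀ σ ∈ simpIn T dM, ∀ ρ ∈ simpIn T dM, σ ⊆ ρ → ∀ x ∈ ost T ρ ∩ dM,
        Additive.toMul (g σ ρ) = b σ x * (b ρ x)⁻¹ := by
  have hb : ∀ σ : Finset ι, ∃ b : V → Γ, σ ∈ simpIn T dM → Prim (ost T σ ∩ dM) c b := by
    intro σ
    by_cases hσ : σ ∈ simpIn T dM
    · have h1 := starConvex_ost hs (bar_spec T hσ.1).1
      rw [supp_bar T hσ.1] at h1
      obtain ⟨b, hb⟩ := (hc.mono inter_subset_right).prim_star (bar_mem_ost hσ) h1
      exact ⟨b, fun _ => hb⟩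
    · exact ⟨fun _ => 1, fun h => absurd h hσ⟩
  choose b hb using hb
  have key : ∀ σ ∈ simpIn T dM, ∀ ρ ∈ simpIn T dM, σ ⊆ ρ → ∀ x ∈ ost T ρ ∩ dM,
      b σ (bar T ρ) * (b ρ (bar T ρ))⁻¹ = b σ x * (b ρ x)⁻¹ := fun σ hσ ρ hρ hσρ x hx =>
    ((hb ρ hρ).lco ((hb σ hσ).mono (inter_subset_inter_left _ (ost_anti T hσρ)))).eq
      (preconn_ost hs hρ.1) (bar_mem_ost hρ) hx
  exact ⟨fun σ ρ => Additive.ofMul (b σ (bar T ρ) * (b ρ (bar T ρ))⁻¹), b,
    ⟨⟨Y, T, b, hY, hs, rfl, rfl, hA, fun σ hσ _ => hb σ hσ, fun σ hσ _ => key σ hσ⟩⟩, hb, key⟩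

/-- the nerve of a family of sets -/
def nerve {κ Z : Type} (W : κ → Set Z) : Set (Finset κ) :=
  {s | s.Nonempty ∧ ∃ z, ∀ i ∈ s, z ∈ W i}

theorem h1_nerve {κ : Type} {Q : Set P} (hQ : Convex ℝ Q) (W : κ → Set P)
    (hW : ∀ i, W i ⊆ Q) (ho : ∀ i, ∀ z ∈ W i, W i ∈ 𝓝[Q] z) (hcv : ∀ i, Convex ℝ (W i))
    (hne : ∀ i, (W i).Nonempty) (hcov : ∀ z ∈ Q, ∃ i, z ∈ W i) : H1On (nerve W) univ := by
  intro θ hθ
  have hθ' : ∀ z i j k, z ∈ W i → z ∈ W j → z ∈ W k → θ i k = θ i j + θ j k := by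
    intro z i j k hi hj hk
    refine hθ {i, j, k} ⟨by simp, z, ?_⟩ i (by simp) j (by simp) k (by simp) trivial trivial trivial
    intro l hl
    simp only [Finset.mem_insert, Finset.mem_singleton] at hl
    rcases hl with rfl | rfl | rfl <;> assumption
  rcases isEmpty_or_nonempty κ with hκ | hκ
  · exact ⟨fun _ => 0, fun σ _ x _ => hκ.elim x⟩
  have : ∀ z, ∃ i, z ∈ Q → z ∈ W i := fun z => by
    by_cases hz : z ∈ Q
    · obtain ⟨i, hi⟩ := hcov z hz; exact ⟨i, fun _ => hi⟩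
    · exact ⟨Classical.arbitrary κ, fun h => absurd h hz⟩
  choose ix hix using this
  have hcoc : Coc Q (fun x y => Multiplicative.ofAdd (θ (ix x) (ix y))) := by
    intro x hx
    filter_upwards [ho _ x (hix x hx), self_mem_nhdsWithin] with y hy hyQ
    filter_upwards [ho _ y hy, ho _ y (hix y hyQ), self_mem_nhdsWithin] with z h1 h2 h3
    rw [← ofAdd_add, hθ' z _ _ _ h1 h2 (hix z h3)]
  obtain ⟨β, hβ⟩ := hcoc.prim_convex hQ
  have hl : ∀ i, LCo (W i) (fun z => Multiplicative.toAdd (β z) + θ (ix z) i) := by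
    intro i x hx
    have hxQ := hW i hx
    filter_upwards [nhdsWithin_mono x (hW i) (hβ x hxQ),
      nhdsWithin_mono x (hW i) (ho _ x (hix x hxQ)), self_mem_nhdsWithin] with y h1 h2 h3
    have h1' : β y = β x * Multiplicative.ofAdd (θ (ix x) (ix y)) := h1
    rw [h1', toAdd_mul, toAdd_ofAdd, add_assoc, ← hθ' y _ _ _ h2 (hix y (hW i h3)) h3]
  choose p hp using hne
  refine ⟨fun i => Multiplicative.toAdd (β (p i)) + θ (ix (p i)) i, ?_⟩
  rintro σ ⟨-, z, hz⟩ i hi j hj - -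
  have e1 := (hl i).eq (hcv i).isPreconnected (hp i) (hz i hi)
  have e2 := (hl j).eq (hcv j).isPreconnected (hp j) (hz j hj)
  have e3 := hθ' z _ _ _ (hix z (hW i (hz i hi))) (hz i hi) (hz j hj)
  simp only at e1 e2 ⊢
  rw [e1, e2, e3]
  generalize Multiplicative.toAdd (β z) = a
  generalize θ (ix z) i = b
  generalize θ i j = d
  revert a b d
  decide

theorem preconn_sph : IsPreconnected (sph 2) :=
  (isConnected_sphere (E := P) (by simp) 0 zero_le_one).isPreconnected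

theorem inStmt (hSi : SimpStmt) (hS : SdStmt) (hP : PushStmt) : InStmt := by
  intro Γ _ M dM c f0 hM hc f0c f0M f0d hne0
  obtain ⟨f, fc, fM, fe, fp⟩ := hP M dM f0 hM f0c f0M
  have hsc : sph 2 ⊆ cube 2 := sphere_subset_closedBall
  have fd : MapsTo f (sph 2) dM := fun x hx => by rw [fe hx]; exact f0d hx
  have hne : ¬ ∃ b, Prim (sph 2) (fun x y => c (f x) (f y)) b := by
    rintro ⟨b, hb⟩
    refine hne0 ⟨b, hb.congr fun x hx => ?_⟩
    filter_upwards [self_mem_nhdsWithin] with y hy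
    rw [fe hx, fe hy]
  obtain ⟨ι, _, Y, T0, hC, hY, hs0, hg0⟩ := hSi M dM (f '' cube 2) hM
    ((isCompact_closedBall 0 1).image_of_continuousOn fc) (image_subset_iff.2 fM)
  obtain ⟨T, h⟩ := hS V ι Y T0
  have h : IsSd T0 T := h
  have hs : T.Sub dM := h.sub hs0
  have fY : ∀ x ∈ cube 2, f x ∈ Y := fun x hx => hC ⟨x, hx, rfl⟩
  -- the vertex and the radius chosen at a point of the square
  have hr : ∀ x : cube 2, ∃ r > 0, (∀ z ∈ ball x.1 r ∩ cube 2, supp T0 (f x) ∈ supp T (f z)) ∧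
      (x.1 ∉ sph 2 → ∀ z ∈ ball x.1 r, z ∉ sph 2) := by
    intro x
    have h1 : ∀ᶠ z in 𝓝[cube 2] x.1, supp T (f x) ⊆ supp T (f z) :=
      ((fc x x.2).tendsto_nhdsWithin (t := Y) fY).eventually (ev_supp T (fY x x.2))
    obtain ⟨r1, hr1, h1⟩ := Metric.mem_nhdsWithin_iff.1 h1
    have h2 : ∃ r2 > 0, x.1 ∉ sph 2 → ∀ z ∈ ball x.1 r2, z ∉ sph 2 := by
      by_cases hx : x.1 ∈ sph 2
      · exact ⟨1, one_pos, fun h => absurd hx h⟩
      · obtain ⟨r2, hr2, h2⟩ := Metric.isOpen_iff.1 (isClosed_sphere (x := (0 : P)) (ε := 1)).isOpen_compl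
          x.1 hx
        exact ⟨r2, hr2, fun _ z hz => h2 hz⟩
    obtain ⟨r2, hr2, h2⟩ := h2
    refine ⟨min r1 r2, lt_min hr1 hr2, fun z hz => ?_, fun hx z hz => ?_⟩
    · exact h1 ⟨ball_subset_ball (min_le_left _ _) hz.1, hz.2⟩ (h.2.1 _ (fY x x.2)).1
    · exact h2 hx z (ball_subset_ball (min_le_right _ _) hz)
  choose r hr0 hr1 hr2 using hr
  obtain ⟨t, ht⟩ := (isCompact_closedBall (0 : P) 1).elim_finite_subcover
    (fun x : cube 2 => ball x.1 (r x)) (fun _ => isOpen_ball)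
    (fun x hx => mem_iUnion.2 ⟨⟨x, hx⟩, mem_ball_self (hr0 _)⟩)
  let W : t → Set P := fun i => ball i.1.1 (r i.1) ∩ cube 2
  let v : t → Finset ι := fun i => supp T0 (f i.1)
  have hWo : ∀ i, ∀ z ∈ W i, W i ∈ 𝓝[cube 2] z := fun i z hz =>
    inter_mem (mem_nhdsWithin_of_mem_nhds (isOpen_ball.mem_nhds hz.1)) self_mem_nhdsWithin
  have hWc : ∀ i, i.1.1 ∈ W i := fun i => ⟨mem_ball_self (hr0 _), i.1.2⟩
  have hcov : ∀ z ∈ cube 2, ∃ i, z ∈ W i := by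
    intro z hz
    obtain ⟨x, hx, hzx⟩ := mem_iUnion₂.1 (ht hz)
    exact ⟨⟨x, hx⟩, hzx, hz⟩
  have hv : ∀ i, ∀ z ∈ W i, v i ∈ supp T (f z) := fun i z hz => hr1 _ z hz
  have hvF : ∀ i, {v i} ∈ simpIn T dM ↔ i.1.1 ∈ sph 2 := by
    intro i
    rw [h.simpIn_iff hs0, h.vtx]
    simp only [Finset.mem_singleton, forall_eq]
    rw [supp_memIn hs0 (fY _ i.1.2)]
    exact ⟨fun h' => fp _ i.1.2 h'.2, fun h' => ⟨supp_mem T0 (fY _ i.1.2), fd h'⟩⟩
  have hpair : ∀ i j, ∀ z ∈ sph 2, z ∈ W i → z ∈ W j →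
      ({i, j} : Finset t) ∈ nerve W ∧ ({v i, v j} : Finset (Finset ι)) ∈ simpIn T dM ∧
        f z ∈ ost T {v i, v j} ∩ dM := by
    intro i j z hz hi hj
    have hsub : ({v i, v j} : Finset (Finset ι)) ⊆ supp T (f z) := by
      intro u hu
      simp only [Finset.mem_insert, Finset.mem_singleton] at hu
      rcases hu with rfl | rfl
      · exact hv i z hi
      · exact hv j z hj
    refine ⟨⟨by simp, z, fun l hl => ?_⟩, memIn_of hs (fY z (hsc hz)) (fd hz) hsub (by simp),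
      ⟨fY z (hsc hz), hsub⟩, fd hz⟩
    simp only [Finset.mem_insert, Finset.mem_singleton] at hl
    rcases hl with rfl | rfl <;> assumption
  have hsx : ∀ z : P, ∃ i : t, z ∈ sph 2 → z ∈ W i ∧ i.1.1 ∈ sph 2 := by
    intro z
    by_cases hz : z ∈ sph 2
    · obtain ⟨i, hi⟩ := hcov z (hsc hz)
      exact ⟨i, fun _ => ⟨hi, by_contra fun hn => hr2 _ hn z hi.1 hz⟩⟩
    · obtain ⟨i, -⟩ := hcov 0 (mem_closedBall_self zero_le_one)
      exact ⟨i, fun h' => absurd h' hz⟩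
  choose ix hix using hsx
  obtain ⟨g, b, G, hprim, hgeq⟩ := exists_geo (M := M) hc T hY hs (range v) (by
    rintro _ ⟨i, rfl⟩
    obtain ⟨a, ha⟩ := supp_ne T0 (fY _ i.1.2)
    exact h.good ha (hg0 a ⟨_, ⟨_, i.1.2, rfl⟩, (mem_supp T0).1 ha⟩))
  refine ⟨_, G, ⟨⟨t, inferInstance, inferInstance, nerve W, v, ?_, ?_, fun i => ⟨i, rfl⟩,
    fun a ha => ha, ?_, ⟨?_, ?_⟩, ?_⟩⟩⟩
  · exact fun i => ⟨by simp, i.1.1, fun j hj => by rw [Finset.mem_singleton.1 hj]; exact hWc i⟩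
  · rintro s ⟨hs1, z, hz⟩
    obtain ⟨i, hi⟩ := hs1
    refine ⟨⟨v i, Finset.mem_image.2 ⟨i, hi, rfl⟩⟩, f z, fY z (hz i hi).2, fun u hu => ?_⟩
    obtain ⟨j, hj, rfl⟩ := Finset.mem_image.1 hu
    exact hv j z (hz j hj)
  · exact h1_nerve (convex_closedBall 0 1) W (fun _ => inter_subset_right) hWo
      (fun _ => (convex_ball _ _).inter (convex_closedBall 0 1)) (fun i => ⟨_, hWc i⟩) hcov
  · have : (fun _ => 1 : P) ∈ sph 2 := by simp [sph]
    exact ⟨ix _, (hvF _).2 (hix _ this).2⟩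
  · intro κ hκ i hi j hj
    have hκ' : ∀ i j, ∀ z ∈ sph 2, i.1.1 ∈ sph 2 → j.1.1 ∈ sph 2 → z ∈ W i → z ∈ W j →
        (κ i ↔ κ j) := fun i j z hz h1 h2 h3 h4 =>
      hκ i ((hvF i).2 h1) j ((hvF j).2 h2) (by
        have := hpair i j z hz h3 h4
        exact ⟨this.1, this.2.1⟩)
    have hl : LCo (sph 2) (fun z => κ (ix z)) := by
      intro x hx
      filter_upwards [nhdsWithin_mono x hsc (hWo _ x (hix x hx).1), self_mem_nhdsWithin]
        with y h1 h2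
      exact propext (hκ' _ _ y h2 (hix y h2).2 (hix x hx).2 (hix y h2).1 h1)
    have hi' := (hvF i).1 hi
    have hj' := (hvF j).1 hj
    rw [hκ' i _ _ hi' hi' (hix _ hi').2 (hWc i) (hix _ hi').1,
      hκ' j _ _ hj' hj' (hix _ hj').2 (hWc j) (hix _ hj').1]
    exact (hl.eq preconn_sph hi' hj').to_iff
  · rintro ⟨l, hl⟩
    refine hne ⟨fun z => Additive.toMul (l (ix z)) * b {v (ix z)} (f z), fun x hx => ?_⟩
    have hx' := hix x hx
    have hox : ∀ z ∈ sph 2, z ∈ W (ix x) → f z ∈ ost T {v (ix x)} ∩ dM := fun z hz h1 =>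
      ⟨⟨fY z (hsc hz), Finset.singleton_subset_iff.2 (hv _ z h1)⟩, fd hz⟩
    have hp := (hprim _ ((hvF _).2 hx'.2)).comp (T := sph 2 ∩ W (ix x)) (f := f)
      (fc.mono (inter_subset_left.trans hsc)) (fun z hz => hox z hz.1 hz.2) x ⟨hx, hx'.1⟩
    have hn := nhdsWithin_mono x hsc (hWo _ x hx'.1)
    rw [inter_comm, nhdsWithin_inter_of_mem hn] at hp
    filter_upwards [hp, hn, self_mem_nhdsWithin] with y h1 h2 h3
    have hy' := hix y h3
    obtain ⟨p1, p2, p3⟩ := hpair (ix x) (ix y) y h3 h2 hy'.1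
    have e0 := congrArg Additive.toMul (hl _ _ p1 p2)
    have e1 := hgeq _ ((hvF _).2 hx'.2) _ p2 (by simp) _ p3
    have e2 := hgeq _ ((hvF _).2 hy'.2) _ p2 (by simp) _ p3
    simp only [toMul_add] at e0
    rw [e1, e2, ← mul_assoc, ← mul_assoc, mul_left_inj] at e0
    have h1' : b {v (ix x)} (f y) = b {v (ix x)} (f x) * c (f x) (f y) := h1
    show _ * _ = _ * _ * _
    rw [← e0, h1', mul_assoc]

/-- road B: the cocycle form of the loop theorem -/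
theorem ltc_of (hS : SdStmt) (hP : PushStmt) (hI : InStmt) (hL : LocStmt) (hT : LtcStmt)
    (hR : RealStmt) : LTc := by
  intro Γ _ M dM F c f0 hM ⟨A, hA, hF⟩ hc f0c f0M f0d hne0
  obtain ⟨f, fc, fM, fe, fp⟩ := hP M dM f0 hM f0c f0M
  have fd : MapsTo f (sph 2) F := fun x hx => by rw [fe hx]; exact f0d hx
  have hne : ¬ ∃ b, Prim (sph 2) (fun x y => c (f x) (f y)) b := by
    rintro ⟨b, hb⟩
    refine hne0 ⟨b, hb.congr fun x hx => ?_⟩
    filter_upwards [self_mem_nhdsWithin] with y hy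
    rw [fe hx, fe hy]
  have hU : IsOpen (A ∪ (M \ dM)) := hA.union hM.2.1
  have e : dM ∩ (A ∪ (M \ dM)) = F := by
    rw [hF]; ext x; simp only [mem_inter_iff, mem_union, Set.mem_sdiff]; tauto
  have hM' := Prd34.Mf.inter_open hM hU
  rw [e] at hM'
  have fM' : MapsTo f (cube 2) (M ∩ (A ∪ (M \ dM))) := by
    intro x hx
    refine ⟨fM hx, ?_⟩
    by_cases h : f x ∈ dM
    · have := fd (fp x hx h)
      rw [hF] at this
      exact Or.inl this.1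
    · exact Or.inr ⟨fM hx, h⟩
  obtain ⟨X, ⟨G⟩, ⟨D⟩⟩ := hI Γ _ F c f hM' hc fc fM' fd hne
  obtain ⟨h1, h2⟩ := hL Γ _ F c X hM' G
  obtain ⟨n, hn⟩ := hT _ X h1 h2 D
  obtain ⟨G'⟩ := G.subN hS n
  obtain ⟨D, d1, d2, d3, d4⟩ := hR Γ _ F c _ hM' G' hn
  have e' : D ∩ dM = D ∩ F := by
    rw [← e]
    ext x
    exact ⟨fun h => ⟨h.1, h.2, (d2 h.1).2⟩, fun h => ⟨h.1, h.2.1⟩⟩
  exact ⟨D, by rw [e']; exact d1, d2.trans inter_subset_left, by rw [e']; exact d3,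
    by rw [e']; exact d4⟩

theorem simp_of (h : Simp2Stmt) : SimpStmt := by
  intro M dM C hM hC hCM
  obtain ⟨ι, i, X, T, h1, h2, h3, -, h4⟩ := h M dM C ∅ hM hC hCM ⟨∅, finite_empty, by simp, by simp⟩
  exact ⟨ι, i, X, T, h1, h2, h3, h4⟩

end Crest.Agent.X212.Geo46
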