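import Crest.Agent.X212.Geo46.Main
import Crest.Agent.X212.Prd34.Blk1
import Crest.Agent.X212.Lev33.Inc
import Crest.Agent.X212.Sol49.Main
import Crest.Agent.X212.Cor42.Main
import Crest.Agent.X212.Lvf3.Main
import Crest.Agent.X212.Lad50.Alex
import Crest.Agent.X212.Lad50.Comp
import Crest.Agent.X212.Lad50.Glue
import Crest.Agent.X212.Lad50.Rung
import Crest.Agent.X212.Lad50.Fin
import Crest.Agent.X212.Rg3.Main
import Crest.Agent.X212.Rz42.Main
import Crest.Agent.X212.Glb47.Main
import Crest.Agent.X212.Thk1.Main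

/-!
# Row 212, layer T: assembly from the remaining leaves
-/

namespace Crest.Agent.X212.Geo46

open Prd34 Lev33

/-- the leaves of layer T that this file does not import -/
structure TOpen : Prop where
  lt : LTStmt
  dehn : DehnStmt
  sph : SphStmt
  ann : AnnRec
  tor : TorRec
  blk : IncStmt → AnnRec → SolidStmt → BlkStmt ∅ {0, 1}

theorem TOpen.plhs (h : TOpen) (K : Finset (Fin 3)) : PLHS K :=
  have inc : IncStmt := Lev33.inc h.lt Thk1.thickStmt Lad50.compStmt h.sph
  have sep := Prd34.sep_of Thk1.flatStmt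
  have gl := Lad50.glue_of sep
  have sol := Sol49.solid h.dehn Thk1.thickStmt
  have r1 := Rg3.rung1 inc Lvf3.lev h.ann
  Lad50.plhs_all
    (Lad50.plhs_zero (Rz42.rung0 Lvf3.lev inc h.tor) (h.blk inc h.ann sol) gl)
    (Lad50.plhs_one r1 (Cor42.core1 r1) (Prd34.blk_one Thk1.flatStmt sol) gl)
    (Lad50.plhs_two (Lad50.rung2_of h.dehn) (Lad50.blk_two sep) gl)
    Lad50.plhs_three K

theorem TOpen.tame (h : TOpen) : Skel83.Tame := Glb47.tame h.plhs

theorem TOpen.smooth (h : TOpen) : Skel83.Smooth := Glb47.smooth h.plhs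

theorem TOpen.goal (h : TOpen) (C : Skel83.Core) : Skel83.Goal := Glb47.goal h.plhs C

end Crest.Agent.X212.Geo46
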